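import Vale.Agent.P249.SFinal
import Vale.Agent.P249.SExact

namespace Vale.Agent.Results.P249.Sharp

open MeasureTheory Filter Asymptotics

universe u

/-- Every `n`-point subset of every real space `L_p(μ)` admits a map into `ℓ_p^d`
of distortion at most `D`. -/
def Reduces (p D : ℝ) (n d : ℕ) : Prop :=
  ∀ (Ω : Type u) [MeasurableSpace Ω] (μ : Measure Ω) (X : Finset (Lp ℝ (ENNReal.ofReal p) μ)),
    X.card = n →
    ∃ (f : Lp ℝ (ENNReal.ofReal p) μ → Fin d → ℝ) (s : ℝ), 0 < s ∧ ∀ x ∈ X, ∀ y ∈ X,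
      s * ‖x - y‖ ≤ (∑ k, |f x k - f y k| ^ p) ^ (1 / p) ∧
      (∑ k, |f x k - f y k| ^ p) ^ (1 / p) ≤ D * s * ‖x - y‖

/-- The least such dimension, `d_p(n, D)`. -/
noncomputable def dimRed (p D : ℝ) (n : ℕ) : ℕ := sInf {d | Reduces.{u} p D n d}

theorem result (p : ℝ) (hp : 1 < p) (hp2 : p ≠ 2) :
    (∀ D : ℝ, 1 < D →
      (∀ n : ℕ, 3 ≤ n → Reduces.{u} p D n (dimRed.{u} p D n)) ∧
      (∃ C : ℝ, ∀ n : ℕ, 3 ≤ n →
        (dimRed.{u} p D n : ℝ) ≤ Real.exp (C * Real.log n ^ |1 - 2 / p|) ∧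
        (dimRed.{u} p D n : ℝ) ≤ Real.exp (C * Real.log n ^ (max (1 / 2) (1 / p)) *
          Real.log (Real.log n) ^ (1 / p))) ∧
      (∀ δ : ℝ, 0 < δ →
        Tendsto (fun n : ℕ => (dimRed.{u} p D n : ℝ) / (n : ℝ) ^ δ) atTop (nhds 0)) ∧
      (fun n : ℕ => (dimRed.{u} p D n : ℝ)) =o[atTop] (fun n : ℕ => (n : ℝ))) ∧
    ∀ n d : ℕ, 1 ≤ n → Reduces.{u} p 1 n d → ((n - 1) / 4) ^ 2 ≤ d := by
  have hp0 : 0 < p := by linarith
  refine ⟨fun D hD => ?_, fun n d hn h => ?_⟩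
  · obtain ⟨C, hC, h⟩ := Vale.Agent.P249.subpoly.{u} p D hp.le hD
    obtain ⟨C', hC', h'⟩ := Vale.Agent.P249.sharp.{u} p D hp hp2 hD
    have e : 1 / min p 2 = max (1 / 2) (1 / p) := by
      rcases le_total p 2 with h2 | h2
      · rw [min_eq_left h2, max_eq_right (one_div_le_one_div_of_le hp0 h2)]
      · rw [min_eq_right h2, max_eq_left (one_div_le_one_div_of_le (by norm_num) h2)]
    rw [e] at h
    have hγ : max (1 / 2) (1 / p) < 1 := max_lt (by norm_num) ((div_lt_one hp0).2 hp)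
    have bound : ∀ n : ℕ, 3 ≤ n → (dimRed.{u} p D n : ℝ) ≤
        Real.exp (C * Real.log n ^ (max (1 / 2) (1 / p)) * Real.log (Real.log n) ^ (1 / p)) := by
      intro n hn
      obtain ⟨N, h1, h2⟩ := h n hn
      exact le_trans (Nat.cast_le.2 (Nat.sInf_le fun Ω _ μ X hX => h2 Ω μ X hX.le)) h1
    have bound' : ∀ n : ℕ, 3 ≤ n → (dimRed.{u} p D n : ℝ) ≤
        Real.exp (C' * Real.log n ^ |1 - 2 / p|) := by
      intro n hn
      obtain ⟨N, h1, h2⟩ := h' n hn
      exact le_trans (Nat.cast_le.2 (Nat.sInf_le fun Ω _ μ X hX => h2 Ω μ X hX.le)) h1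
    have lim : ∀ δ : ℝ, 0 < δ →
        Tendsto (fun n : ℕ => (dimRed.{u} p D n : ℝ) / (n : ℝ) ^ δ) atTop (nhds 0) := by
      intro δ hδ
      refine squeeze_zero' (Eventually.of_forall fun n => by positivity) ?_
        (Vale.Agent.P249.stretched_tendsto C _ (1 / p) δ hC hγ hδ)
      filter_upwards [eventually_ge_atTop 3] with n hn
      exact div_le_div_of_nonneg_right (bound n hn) (by positivity)
    refine ⟨fun n hn => ?_, ⟨C + C', fun n hn => ?_⟩, lim, ?_⟩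
    · obtain ⟨N, _, h2⟩ := h n hn
      exact Nat.sInf_mem (s := {d | Reduces.{u} p D n d}) ⟨N, fun Ω _ μ X hX => h2 Ω μ X hX.le⟩
    · have h1 := Vale.Agent.P249.log_ge_of_three hn
      have h2 := Vale.Agent.P249.loglog_ge hn
      have h3 : 0 ≤ Real.log n := by linarith
      have h4 : 0 ≤ Real.log (Real.log n) := by linarith
      refine ⟨(bound' n hn).trans ?_, (bound n hn).trans ?_⟩
      · gcongr
        linarith
      · gcongr
        linarith
    · refine isLittleO_of_tendsto' ?_ (by simpa using lim 1 one_pos)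
      filter_upwards [eventually_gt_atTop 0] with n hn h0
      exact absurd h0 (Nat.cast_pos.2 hn).ne'
  · obtain ⟨Ω, _, μ, X, hX, hd⟩ := Vale.Agent.P249.exact_lower.{u} p hp hp2 ((n - 1) / 4) n
      (by omega)
    obtain ⟨f, s, hs, hf⟩ := h Ω μ X hX
    refine hd d f s hs fun x hx y hy => le_antisymm ?_ (hf x hx y hy).1
    simpa using (hf x hx y hy).2

end Vale.Agent.Results.P249.Sharp
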