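import Vale.Agent.P249.Main

namespace Vale.Agent.Results.P249.Subpoly

open MeasureTheory Filter Asymptotics

universe u

/-- Every `n`-point subset of every real space `L_p(μ)` admits a map into `ℓ_p^d`
of distortion at most `D`. -/
def Reduces (p D : ℝ) (n d : ℕ) : Prop :=
  ∀ (Ω : Type u) [MeasurableSpace Ω] (μ : Measure Ω) (X : Finset (Lp ℝ (ENNReal.ofReal p) μ)),
    X.card = n →
    ∃ (f : Lp ℝ (ENNReal.ofReal p) μ → Fin d → ℝ) (s : ℝ), 0 < s ∧ ∀ x ∈ X, ∀ y ∈ X,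
      s * ‖x - y‖ ≤ (∑ k, |f x k - f y k| ^ p) ^ (1 / p) ∧
      (∑ k, |f x k - f y k| ^ p) ^ (1 / p) ≤ D * s * ‖x - y‖

/-- The least such dimension, `d_p(n, D)`. -/
noncomputable def dimRed (p D : ℝ) (n : ℕ) : ℕ := sInf {d | Reduces.{u} p D n d}

theorem result (p D : ℝ) (hp : 1 < p) (hD : 1 < D) :
    (∀ n : ℕ, 3 ≤ n → Reduces.{u} p D n (dimRed.{u} p D n)) ∧
    (∃ C : ℝ, ∀ n : ℕ, 3 ≤ n → (dimRed.{u} p D n : ℝ) ≤
      Real.exp (C * Real.log n ^ (max (1 / 2) (1 / p)) * Real.log (Real.log n) ^ (1 / p))) ∧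
    (∀ δ : ℝ, 0 < δ →
      Tendsto (fun n : ℕ => (dimRed.{u} p D n : ℝ) / (n : ℝ) ^ δ) atTop (nhds 0)) ∧
    (fun n : ℕ => (dimRed.{u} p D n : ℝ)) =o[atTop] (fun n : ℕ => (n : ℝ)) := by
  obtain ⟨C, hC, h⟩ := Vale.Agent.P249.subpoly.{u} p D hp.le hD
  have hp0 : 0 < p := by linarith
  have e : 1 / min p 2 = max (1 / 2) (1 / p) := by
    rcases le_total p 2 with h2 | h2
    · rw [min_eq_left h2, max_eq_right (one_div_le_one_div_of_le hp0 h2)]
    · rw [min_eq_right h2, max_eq_left (one_div_le_one_div_of_le (by norm_num) h2)]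
  rw [e] at h
  have hγ : max (1 / 2) (1 / p) < 1 := max_lt (by norm_num) ((div_lt_one hp0).2 hp)
  have key : ∀ n : ℕ, 3 ≤ n → ∃ N : ℕ, Reduces.{u} p D n N ∧ (N : ℝ) ≤
      Real.exp (C * Real.log n ^ (max (1 / 2) (1 / p)) * Real.log (Real.log n) ^ (1 / p)) := by
    intro n hn
    obtain ⟨N, h1, h2⟩ := h n hn
    exact ⟨N, fun Ω _ μ X hX => h2 Ω μ X hX.le, h1⟩
  have bound : ∀ n : ℕ, 3 ≤ n → (dimRed.{u} p D n : ℝ) ≤
      Real.exp (C * Real.log n ^ (max (1 / 2) (1 / p)) * Real.log (Real.log n) ^ (1 / p)) := by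
    intro n hn
    obtain ⟨N, h1, h2⟩ := key n hn
    exact le_trans (Nat.cast_le.2 (Nat.sInf_le h1)) h2
  have lim : ∀ δ : ℝ, 0 < δ →
      Tendsto (fun n : ℕ => (dimRed.{u} p D n : ℝ) / (n : ℝ) ^ δ) atTop (nhds 0) := by
    intro δ hδ
    refine squeeze_zero' (Eventually.of_forall fun n => by positivity) ?_
      (Vale.Agent.P249.stretched_tendsto C _ (1 / p) δ hC hγ hδ)
    filter_upwards [eventually_ge_atTop 3] with n hn
    exact div_le_div_of_nonneg_right (bound n hn) (by positivity)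
  refine ⟨fun n hn => ?_, ⟨C, bound⟩, lim, ?_⟩
  · obtain ⟨N, h1, _⟩ := key n hn
    exact Nat.sInf_mem (s := {d | Reduces.{u} p D n d}) ⟨N, h1⟩
  · refine isLittleO_of_tendsto' ?_ (by simpa using lim 1 one_pos)
    filter_upwards [eventually_gt_atTop 0] with n hn h0
    exact absurd h0 (Nat.cast_pos.2 hn).ne'

end Vale.Agent.Results.P249.Subpoly
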